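import Mathlib

/-!
# P114: definitions shared by all files

All logarithms are natural. Scale `s` means cells of width `exp (-s)`.
-/

open MeasureTheory Real Set Polynomial
open scoped ENNReal

namespace Vale.Agent.P114

noncomputable section

/-! ## Finite entropy (unnormalised, 1-homogeneous) -/

/-- `∑ -a b * log (a b / ∑ a)`. -/
def ent {β : Type*} (S : Finset β) (a : β → ℝ) : ℝ :=
  ∑ b ∈ S, negMulLog (a b) - negMulLog (∑ b ∈ S, a b)

open Classical in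
/-- The fibre of `X` over `b` inside `S`. -/
def fib {Ω β : Type*} (S : Finset Ω) (X : Ω → β) (b : β) : Finset Ω :=
  S.filter (fun ω => X ω = b)

open Classical in
/-- The image of `S` under `X`. -/
def img {Ω β : Type*} (S : Finset Ω) (X : Ω → β) : Finset β := S.image X

/-- Weight of the fibre over `b`. -/
def mass {Ω β : Type*} (S : Finset Ω) (w : Ω → ℝ) (X : Ω → β) (b : β) : ℝ :=
  ∑ ω ∈ fib S X b, w ω

/-- Entropy of the variable `X` on the weighted finite set `(S, w)`. -/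
def entW {Ω β : Type*} (S : Finset Ω) (w : Ω → ℝ) (X : Ω → β) : ℝ :=
  ent (img S X) (mass S w X)

/-- Conditional entropy of `X` given `Y`. -/
def condW {Ω β γ : Type*} (S : Finset Ω) (w : Ω → ℝ) (X : Ω → β) (Y : Ω → γ) : ℝ :=
  entW S w (fun ω => (X ω, Y ω)) - entW S w Y

/-! ## Averaged grid entropy of measures on the line -/

/-- Index of the cell of `x` in the grid of width `exp (-s)` and offset `u`. -/
def cell (s u x : ℝ) : ℤ := ⌊x * exp s + u⌋

/-- Total mass. -/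
def mss (ν : Measure ℝ) : ℝ := ν.real univ

/-- Entropy of the integer valued function `c` under the finite measure `ν`. -/
def Hc (ν : Measure ℝ) (c : ℝ → ℤ) : ℝ :=
  (∑' k : ℤ, negMulLog (ν.real (c ⁻¹' {k}))) - negMulLog (mss ν)

/-- Entropy for one grid. -/
def Hu (ν : Measure ℝ) (s u : ℝ) : ℝ := Hc ν (cell s u)

/-- Entropy at scale `s`, averaged over the offset. -/
def Hs (ν : Measure ℝ) (s : ℝ) : ℝ := ∫ u in (0 : ℝ)..1, Hu ν s u

/-- Entropy between the scales `s` and `s + K log 2`. -/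
def Hk (ν : Measure ℝ) (s : ℝ) (K : ℕ) : ℝ := Hs ν (s + K * log 2) - Hs ν s

/-- Finite measures with bounded support. -/
structure Good (ν : Measure ℝ) : Prop where
  fin : IsFiniteMeasure ν
  bdd : ∃ R : ℝ, ν (Icc (-R) R)ᶜ = 0

/-- The atomic measure `∑ w ω • δ (t ω)`. -/
def atom {Ω : Type*} (S : Finset Ω) (w t : Ω → ℝ) : Measure ℝ :=
  ∑ ω ∈ S, ENNReal.ofReal (w ω) • Measure.dirac (t ω)

/-- The law of `ρ Y`. -/
def scl (ρ : ℝ) (μ : Measure ℝ) : Measure ℝ := μ.map (fun x => ρ * x)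

/-- Averaged mutual information between the signal `ν` and the cell of signal plus noise `η`. -/
def info (ν η : Measure ℝ) (s : ℝ) : ℝ := Hs (ν ∗ η) s - mss ν * Hs η s

/-- Entropy gain between the scales `s` and `s + K log 2`. -/
def gain (ν η : Measure ℝ) (s : ℝ) (K : ℕ) : ℝ := Hk (ν ∗ η) s K - mss ν * Hk η s K

/-- Nonnegative, superadditive, homogeneous functionals. -/
structure Sup (Γ : Measure ℝ → ℝ) : Prop where
  nonneg : ∀ ν, Good ν → 0 ≤ Γ ν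
  add : ∀ ν₁ ν₂, Good ν₁ → Good ν₂ → Γ ν₁ + Γ ν₂ ≤ Γ (ν₁ + ν₂)
  smul : ∀ (c : ℝ) (ν : Measure ℝ), 0 ≤ c → Good ν → Γ (ENNReal.ofReal c • ν) = c * Γ ν

/-- Distinct atoms are at distance between `exp (-σ2)` and `exp (-σ0)`. -/
def Sep (J : Finset ℤ) (x : ℤ → ℝ) (σ0 σ2 : ℝ) : Prop :=
  ∀ j ∈ J, ∀ j' ∈ J, j ≠ j' → exp (-σ2) ≤ |x j - x j'| ∧ |x j - x j'| ≤ exp (-σ0)

/-- The growth rate `α` of `Hs μ`: upper bound everywhere, lower bound far out. -/
def Slope (μ : Measure ℝ) (α C : ℝ) : Prop :=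
  (∀ s x : ℝ, 0 ≤ x → Hs μ (s + x) - Hs μ s ≤ α * x + C) ∧
  (∀ ε : ℝ, 0 < ε → ∃ s₁ : ℝ, ∀ s x : ℝ, s₁ ≤ s → 0 ≤ x → (α - ε) * x - C ≤ Hs μ (s + x) - Hs μ s)

/-- Lower Hausdorff dimension. -/
def lowerDim (μ : Measure ℝ) : ℝ≥0∞ :=
  ⨅ (E : Set ℝ) (_ : MeasurableSet E) (_ : 0 < μ E), dimH E

/-! ## Iterated function systems and words -/

/-- Ratios, translations and weights. -/
structure IFS (Λ : Type*) [Fintype Λ] where
  r : Λ → ℝ
  t : Λ → ℝ
  p : Λ → ℝ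
  r_ne : ∀ i, r i ≠ 0
  r_lt : ∀ i, |r i| < 1
  p_pos : ∀ i, 0 < p i
  p_sum : ∑ i, p i = 1

/-- Words of length `m`. -/
def words (Λ : Type*) [Fintype Λ] (m : ℕ) : Finset (List Λ) :=
  (Finset.univ : Finset (Fin m → Λ)).map ⟨List.ofFn, List.ofFn_injective⟩

/-- Product weight of a word. -/
def pw {Λ : Type*} (p : Λ → ℝ) (w : List Λ) : ℝ := (w.map p).prod

/-- Class of a word: its letter counts and an extra label. -/
def cls {Λ β : Type*} (ex : List Λ → β) (w : List Λ) : Multiset Λ × β := ((w : Multiset Λ), ex w)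

/-- The extra label is stable under appending a common suffix. -/
def ExOK {Λ β : Type*} (ex : List Λ → β) : Prop :=
  ∀ w w' v : List Λ, cls ex w = cls ex w' → ex (w ++ v) = ex (w' ++ v)

namespace IFS

variable {Λ : Type*} [Fintype Λ] (F : IFS Λ)

/-- Slope of the composed map. -/
def rw (w : List Λ) : ℝ := (w.map F.r).prod

/-- Value at `0` of the composed map. -/
def tw : List Λ → ℝ
  | [] => 0
  | i :: w => F.r i * tw w + F.t i

/-- Slope as a function of the letter counts. -/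
def rm (c : Multiset Λ) : ℝ := (c.map F.r).prod

/-- `-log |r_w|`. -/
def chiw (w : List Λ) : ℝ := -log |F.rw w|

/-- Lyapunov exponent (natural log). -/
def chi : ℝ := ∑ i, F.p i * (-log |F.r i|)

/-- Self-similarity. -/
def SelfSim (μ : Measure ℝ) : Prop :=
  μ = ∑ i, ENNReal.ofReal (F.p i) • μ.map (fun x => F.r i * x + F.t i)

/-- Entropy of the random map of level `m` (natural log). -/
def HG (m : ℕ) : ℝ := entW (words Λ m) (pw F.p) (fun w => (F.rw w, F.tw w))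

/-- Random walk entropy (natural log). -/
def hh : ℝ := ⨅ n : ℕ, F.HG (n + 1) / (n + 1)

/-- The density of the potential. -/
def gfun (μ : Measure ℝ) (s : ℝ) : ℝ :=
  Hk μ s 1 - ∑ i, F.p i * Hk μ (s + log |F.r i|) 1

/-- Typical words. -/
def typ (ε : ℝ) (m : ℕ) : Finset (List Λ) :=
  (words Λ m).filter (fun w => F.chiw w ≤ (F.chi + ε / 2) * m)

/-- Atypical words. -/
def atyp (ε : ℝ) (m : ℕ) : Finset (List Λ) :=
  (words Λ m).filter (fun w => ¬ F.chiw w ≤ (F.chi + ε / 2) * m)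

variable {β : Type*}

/-- The atomic measure of one class. -/
def nu (ex : List Λ → β) (ε : ℝ) (m : ℕ) (f : Multiset Λ × β) : Measure ℝ :=
  atom (fib (F.typ ε m) (cls ex) f) (pw F.p) F.tw

/-- Entropy at scale `s` inside the classes. -/
def Hm (ex : List Λ → β) (ε : ℝ) (m : ℕ) (s : ℝ) : ℝ :=
  ∑ f ∈ img (F.typ ε m) (cls ex), Hs (F.nu ex ε m f) s

/-- Atomic entropy inside the classes. -/
def Hinf (ex : List Λ → β) (ε : ℝ) (m : ℕ) : ℝ :=
  condW (F.typ ε m) (pw F.p) F.tw (cls ex)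

/-- Entropy left beyond scale `s`. -/
def Rm (ex : List Λ → β) (ε : ℝ) (m : ℕ) (s : ℝ) : ℝ := F.Hinf ex ε m - F.Hm ex ε m s

/-- Scales of the nonzero differences inside classes (all words of length `m`). -/
def VV (ex : List Λ → β) (m : ℕ) : Set ℝ :=
  {v | ∃ w ∈ words Λ m, ∃ w' ∈ words Λ m, cls ex w = cls ex w' ∧ F.tw w ≠ F.tw w' ∧
    v = -log |F.tw w - F.tw w'|}

/-- The corrected entropy increment. -/
def Em (ex : List Λ → β) (ε : ℝ) (m K0 K2 : ℕ) (σ : ℝ) : ℝ :=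
  (F.Hm ex ε m (σ + K0 * log 2) - F.Hm ex ε m σ) -
    8 / 2 ^ K2 * (F.Hm ex ε m (σ + (K0 + K2 : ℕ) * log 2) - F.Hm ex ε m σ)

/-- Little entropy is left beyond the natural scale, for arbitrarily large levels. -/
def PP (ex : List Λ → β) : Prop :=
  ∀ ε : ℝ, 0 < ε → ∀ δ : ℝ, 0 < δ → ∀ N0 : ℕ, ∃ N : ℕ, N0 ≤ N ∧
    F.Rm ex ε N ((F.chi + ε) * N) ≤ δ * N

/-- One lazy step acting on functions of the noise ratio. -/
def Lz (G : ℝ → ℝ) (ρ : ℝ) : ℝ := (G ρ + ∑ i, F.p i * G (ρ * F.r i)) / 2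

/-- The gain after `n` lazy steps. -/
def Gam (μ : Measure ℝ) (n K : ℕ) (s ρ : ℝ) (ν : Measure ℝ) : ℝ :=
  (F.Lz^[n] (fun ρ' => gain ν (scl ρ' μ) s K)) ρ

end IFS

/-! ## Windows -/

/-- The window radius `m (log m)^5`. -/
def fz (m : ℕ) : ℝ := m * log m ^ 5

/-- `V` lies in `d` short arithmetic progressions of windows. -/
def W2 (V : Set ℝ) (d : ℕ) (J γ e : ℝ) : Prop :=
  ∃ Y : Finset ℝ, Y.card ≤ d ∧ ∀ v ∈ V, ∃ y ∈ Y, ∃ j : ℤ, |(j : ℝ)| ≤ J ∧ |v - y - j * γ| ≤ e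

/-- `V` lies in `D` windows of radius `e`. -/
def Cov (V : Set ℝ) (D : ℕ) (e : ℝ) : Prop :=
  ∃ Y : Finset ℝ, Y.card ≤ D ∧ ∀ v ∈ V, ∃ y ∈ Y, |v - y| ≤ e

/-! ## Minors and rank -/

/-- The minor of the rows `y` on the columns `e`. -/
def minor {A Λ : Type*} [CommRing A] {k : ℕ} (y : Fin k → Λ → A) (e : Fin k → Λ) : A :=
  (Matrix.of fun i j => y i (e j)).det

/-- Sizes of tuples in `R` with a nonzero minor. -/
def rkSet {A Λ : Type*} [CommRing A] (R : Set (Λ → A)) : Set ℕ :=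
  {k | ∃ y : Fin k → Λ → A, (∀ i, y i ∈ R) ∧ ∃ e : Fin k → Λ, minor y e ≠ 0}

/-- The rank of a set of vectors. -/
def rk {A Λ : Type*} [CommRing A] (R : Set (Λ → A)) : ℕ := sSup (rkSet R)

/-! ## Case B -/

/-- Even spreading of the fractional parts of `j θ`, `j < b`. -/
def EQd (θ : ℝ) (b : ℕ) : Prop :=
  ∀ a l : ℝ, 0 ≤ l →
    (((Finset.range b).filter (fun j : ℕ => a ≤ Int.fract (j * θ) ∧ Int.fract (j * θ) ≤ a + l)).card : ℝ)
      ≤ b * l + 3

/-- Average over the ratios `ρ r^(2j)`, `j < b`. -/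
def Uav (r : ℝ) (b : ℕ) (G : ℝ → ℝ) (ρ : ℝ) : ℝ :=
  (∑ j ∈ Finset.range b, G (ρ * r ^ (2 * j))) / b

/-- Every integer interval of length `M^J`, `J ≤ Km`, holds at most `2 M^(γ J)` points of `G`. -/
def Sparse (G : Set ℤ) (M : ℕ) (γ : ℝ) (Km : ℕ) : Prop :=
  ∀ J : ℕ, J ≤ Km → ∀ (a : ℤ) (T : Finset ℤ), (∀ c ∈ T, c ∈ G ∧ a ≤ c ∧ c < a + (M : ℤ) ^ J) →
    (T.card : ℝ) ≤ 2 * (M : ℝ) ^ (γ * J)

/-- `-log (n + ζ (1 - n))`. -/
def psi (ζ n : ℝ) : ℝ := -log (n + ζ * (1 - n))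

open Classical in
/-- The integrand of the decoding bound. -/
def Psi (J : Finset ℤ) (n x : ℤ → ℝ) (ρ : ℝ) (G Gp : Set ℝ) (κ : ℝ) (j : ℤ) (y : ℝ) : ℝ :=
  if y ∈ G then
    -log (n j + ∑ j' ∈ J.erase j, n j' * (κ + Gp.indicator 1 (y + (x j - x j') / ρ)))
  else -(∑ j' ∈ J.erase j, n j' * Gp.indicator 1 (y + (x j - x j') / ρ)) / κ

/-! ## Case A -/

/-- Exponents, signs and weights: ratios are `sg i * x ^ a i`. -/
structure Shape (Λ : Type*) [Fintype Λ] where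
  a : Λ → ℕ
  sg : Λ → ℤ
  p : Λ → ℝ
  a_pos : ∀ i, 0 < a i
  sg_sq : ∀ i, sg i = 1 ∨ sg i = -1
  p_pos : ∀ i, 0 < p i
  p_sum : ∑ i, p i = 1

/-- Evaluation of a vector of integer polynomials against `t`. -/
def ev {Λ : Type*} [Fintype Λ] (x : ℝ) (t : Λ → ℝ) (y : Λ → ℤ[X]) : ℝ :=
  ∑ l, aeval x (y l) * t l

/-- Polynomials as power series. -/
def toPS {Λ : Type*} (y : Λ → ℤ[X]) : Λ → PowerSeries ℤ := fun l => (y l : PowerSeries ℤ)

/-- Saturated and coefficientwise closed submodules. -/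
structure Nice {Λ : Type*} (K : Submodule (PowerSeries ℤ) (Λ → PowerSeries ℤ)) : Prop where
  sat : ∀ (a : PowerSeries ℤ) (y : Λ → PowerSeries ℤ), a ≠ 0 → a • y ∈ K → y ∈ K
  closed : ∀ y : Λ → PowerSeries ℤ,
    (∀ N : ℕ, ∃ z ∈ K, ∀ l, ∀ i < N, PowerSeries.coeff i (z l) = PowerSeries.coeff i (y l)) → y ∈ K

/-- Sum of the absolute values of the coefficients. -/
def l1 (P : ℤ[X]) : ℝ := ∑ i ∈ P.support, |(P.coeff i : ℝ)|

/-- Degree at most `C m`, length at most `m ^ C`. -/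
def InB (C m : ℕ) (P : ℤ[X]) : Prop := P.natDegree ≤ C * m ∧ l1 P ≤ (m : ℝ) ^ C

/-- Order of vanishing at a complex point. -/
def ordAt (η : ℂ) (P : ℤ[X]) : ℕ := (P.map (Int.castRingHom ℂ)).rootMultiplicity η

/-- All nonzero maximal minors of tuples of `R` vanish to order at least `A` at `η`. -/
def Deep {Λ : Type*} (η : ℂ) (A : ℕ) (R : Set (Λ → ℤ[X])) : Prop :=
  ∀ y : Fin (rk R) → Λ → ℤ[X], (∀ i, y i ∈ R) → ∀ e : Fin (rk R) → Λ,
    minor y e ≠ 0 → A ≤ ordAt η (minor y e)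

/-- First alternative: no small nonzero values. -/
def Alt1 (x : ℝ) (C m : ℕ) : Prop :=
  ∀ P : ℤ[X], InB C m P → aeval x P ≠ 0 → |log (|aeval x P|)| ≤ fz m / 9

/-- Second alternative: values are governed by the order of vanishing at `η`. -/
def Alt2 (x : ℝ) (C : ℕ) (C' : ℝ) (m : ℕ) (η : ℂ) (γ : ℝ) : Prop :=
  ∀ P : ℤ[X], InB C m P → P ≠ 0 → aeval x P ≠ 0 ∧ (ordAt η P : ℝ) ≤ C' * log m ∧
    |-log (|aeval x P|) - ordAt η P * γ| ≤ fz m / 9

/-- The first alternative holds for all large levels. -/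
def GoodL (x : ℝ) : Prop := ∀ C : ℕ, ∃ m0 : ℕ, ∀ m, m0 ≤ m → Alt1 x C m

/-- Degree at most `n`, coefficients in `[-2, 2]`. -/
def Small {Λ : Type*} (n : ℕ) (y : Λ → ℤ[X]) : Prop :=
  ∀ l, (y l).natDegree ≤ n ∧ ∀ i, |(y l).coeff i| ≤ 2

namespace Shape

variable {Λ : Type*} [Fintype Λ] (sh : Shape Λ)

/-- The system with base `x` and translations `t`. -/
def ifs (x : ℝ) (hx : x ∈ Ioo (0 : ℝ) 1) (t : Λ → ℝ) : IFS Λ where
  r i := sh.sg i * x ^ sh.a i
  t := t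
  p := sh.p
  r_ne i := by
    have h1 : (sh.sg i : ℝ) ≠ 0 := by rcases sh.sg_sq i with h | h <;> simp [h]
    exact mul_ne_zero h1 (pow_ne_zero _ hx.1.ne')
  r_lt i := by
    have h1 : |(sh.sg i : ℝ)| = 1 := by rcases sh.sg_sq i with h | h <;> simp [h]
    rw [abs_mul, h1, one_mul, abs_of_pos (pow_pos hx.1 _)]
    exact pow_lt_one₀ hx.1.le hx.2 (sh.a_pos i).ne'
  p_pos := sh.p_pos
  p_sum := sh.p_sum

open Classical in
/-- The formal translation vector of a word. -/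
def XW : List Λ → Λ → ℤ[X]
  | [] => 0
  | i :: w => fun l => (if l = i then 1 else 0) + C (sh.sg i) * X ^ sh.a i * XW w l

/-- The formal slope of a word, as a function of the letter counts. -/
def mon (c : Multiset Λ) : ℤ[X] := (c.map (fun i => C (sh.sg i) * X ^ sh.a i)).prod

/-- The coset of the formal translation vector modulo `K`. -/
def exK (K : Submodule (PowerSeries ℤ) (Λ → PowerSeries ℤ)) (w : List Λ) :
    (Λ → PowerSeries ℤ) ⧸ K := K.mkQ (toPS (sh.XW w))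

/-- Normalised differences of words of length `m` in one class at distance at most `exp (-s)`. -/
def RR (x : ℝ) (t : Λ → ℝ) (K : Submodule (PowerSeries ℤ) (Λ → PowerSeries ℤ)) (m : ℕ) (s : ℝ) :
    Set (Λ → ℤ[X]) :=
  {y | ∃ u v v' : List Λ, u.length + v.length = m ∧ (v : Multiset Λ) = (v' : Multiset Λ) ∧
    toPS (sh.XW v - sh.XW v') ∈ K ∧
    |ev x t (sh.XW (u ++ v)) - ev x t (sh.XW (u ++ v'))| ≤ exp (-s) ∧ y = sh.XW v - sh.XW v'}

end Shape

end

end Vale.Agent.P114
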